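import Mathlib

/-!
# Spatial tensor products, multipliers and cocycle conjugacy (definitions)
-/

open scoped TensorProduct MultiplierAlgebra InnerProductSpace

namespace Vale.Agent.P095

universe u v

/-- The bilinear map `τ : H × K → L` exhibits the Hilbert space `L` as the Hilbert space tensor
product of the Hilbert spaces `H` and `K`: `⟪τ ξ η, τ ξ' η'⟫ = ⟪ξ, ξ'⟫ ⟪η, η'⟫`, and the vectors
`τ ξ η` span a dense subspace of `L`. -/
def IsHilbertTensor {H K L : Type u} [NormedAddCommGroup H] [InnerProductSpace ℂ H]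
    [NormedAddCommGroup K] [InnerProductSpace ℂ K] [NormedAddCommGroup L] [InnerProductSpace ℂ L]
    (τ : H →ₗ[ℂ] K →ₗ[ℂ] L) : Prop :=
  (∀ (ξ ξ' : H) (η η' : K), inner ℂ (τ ξ η) (τ ξ' η') = inner ℂ ξ ξ' * inner ℂ η η') ∧
  Dense (Submodule.span ℂ (Set.range fun p : H × K => τ p.1 p.2) : Set L)

/-- `t : A → D → C` is faithfully represented on the Hilbert space tensor product `L` of `H` and
`K`: there are faithful representations `π` of `A` on `H`, `σ` of `D` on `K` and `ρ` of `C` on `L`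
such that `ρ (t a d) = π a ⊗ σ d`. -/
def RepresentedOn {A D C : Type u} [NonUnitalCStarAlgebra A]
    [NonUnitalCStarAlgebra D] [NonUnitalCStarAlgebra C] (t : A → D → C)
    (H K L : Type u) [NormedAddCommGroup H] [InnerProductSpace ℂ H] [CompleteSpace H]
    [NormedAddCommGroup K] [InnerProductSpace ℂ K] [CompleteSpace K]
    [NormedAddCommGroup L] [InnerProductSpace ℂ L] [CompleteSpace L] : Prop :=
  ∃ (τ : H →ₗ[ℂ] K →ₗ[ℂ] L) (π : A →⋆ₙₐ[ℂ] (H →L[ℂ] H)) (σ : D →⋆ₙₐ[ℂ] (K →L[ℂ] K))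
    (ρ : C →⋆ₙₐ[ℂ] (L →L[ℂ] L)),
    IsHilbertTensor τ ∧ Function.Injective π ∧ Function.Injective σ ∧ Function.Injective ρ ∧
      ∀ (a : A) (d : D) (ξ : H) (η : K), ρ (t a d) (τ ξ η) = τ (π a ξ) (σ d η)

/-- `t : A → D → C` exhibits the C*-algebra `C` as the spatial (minimal) tensor product of the
C*-algebras `A` and `D`: there are faithful representations `π` of `A` and `σ` of `D` on Hilbert
spaces `H` and `K` such that `C` is (isomorphic to) the closed linear span of the operators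
`π a ⊗ σ d` on the Hilbert space tensor product `L` of `H` and `K`, with `t a d ↦ π a ⊗ σ d`. -/
structure IsSpatialTensorProduct {A D C : Type u} [NonUnitalCStarAlgebra A]
    [NonUnitalCStarAlgebra D] [NonUnitalCStarAlgebra C] (t : A → D → C) : Prop where
  dense_span :
    Dense (Submodule.span ℂ (Set.range fun p : A × D => t p.1 p.2) : Set C)
  exists_rep :
    ∃ (H K L : Type u) (_ : NormedAddCommGroup H) (_ : InnerProductSpace ℂ H)
      (_ : CompleteSpace H) (_ : NormedAddCommGroup K) (_ : InnerProductSpace ℂ K)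
      (_ : CompleteSpace K) (_ : NormedAddCommGroup L) (_ : InnerProductSpace ℂ L)
      (_ : CompleteSpace L), RepresentedOn t H K L

/-- A C*-algebra is simple if it is nonzero and has no closed two-sided ideals besides the
trivial ones. -/
def IsSimpleCStar (A : Type u) [NonUnitalCStarAlgebra A] : Prop :=
  Nontrivial A ∧ ∀ I : Submodule ℂ A, IsClosed (I : Set A) →
    (∀ a x : A, x ∈ I → a * x ∈ I ∧ x * a ∈ I) → I = ⊥ ∨ I = ⊤

/-- A *-isomorphism of C*-algebras as a continuous linear map. -/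
noncomputable def toCLM {A B : Type u} [NonUnitalCStarAlgebra A] [NonUnitalCStarAlgebra B]
    (φ : A ≃⋆ₐ[ℂ] B) : A →L[ℂ] B :=
  { toFun := φ
    map_add' := fun x y => map_add φ x y
    map_smul' := fun c x => map_smul φ c x
    cont := (NonUnitalStarAlgHom.isometry (φ : A →⋆ₙₐ[ℂ] B) φ.injective).continuous }

/-- The *-isomorphism `𝓜(A) → 𝓜(B)` of multiplier algebras induced by a *-isomorphism
`φ : A → B`, as a map: `(L, R) ↦ (φ ∘ L ∘ φ⁻¹, φ ∘ R ∘ φ⁻¹)`. -/
noncomputable def mulExt {A B : Type u} [NonUnitalCStarAlgebra A] [NonUnitalCStarAlgebra B]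
    (φ : A ≃⋆ₐ[ℂ] B) (m : 𝓜(ℂ, A)) : 𝓜(ℂ, B) :=
  { fst := (toCLM φ).comp (m.fst.comp (toCLM φ.symm))
    snd := (toCLM φ).comp (m.snd.comp (toCLM φ.symm))
    central := fun x y => by
      show φ (m.snd (φ.symm x)) * y = x * φ (m.fst (φ.symm y))
      have h := m.central (φ.symm x) (φ.symm y)
      calc φ (m.snd (φ.symm x)) * y = φ (m.snd (φ.symm x)) * φ (φ.symm y) := by simp
        _ = φ (φ.symm x * m.fst (φ.symm y)) := by rw [← map_mul, h]
        _ = x * φ (m.fst (φ.symm y)) := by simp [map_mul] }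

/-- Two actions `α` of `G` on `A` and `β` of `G` on `B` are cocycle conjugate if there are a
*-isomorphism `Φ : A → B` and a `β`-cocycle `u` of unitaries in the multiplier algebra of `B`
(`u (g h) = u g * β_g (u h)`), with `Φ (α_g a) = u_g * β_g (Φ a) * u_g^*`. -/
def CocycleConjugate {G : Type v} [Group G] {A B : Type u} [NonUnitalCStarAlgebra A]
    [NonUnitalCStarAlgebra B] (α : G →* (A ≃⋆ₐ[ℂ] A)) (β : G →* (B ≃⋆ₐ[ℂ] B)) : Prop :=
  ∃ (Φ : A ≃⋆ₐ[ℂ] B) (w : G → unitary 𝓜(ℂ, B)),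
    (∀ g h, (w (g * h) : 𝓜(ℂ, B)) = w g * mulExt (β g) (w h : 𝓜(ℂ, B))) ∧
    ∀ g a, (Φ (α g a) : 𝓜(ℂ, B)) = w g * (β g (Φ a) : 𝓜(ℂ, B)) * star (w g : 𝓜(ℂ, B))

/-- The action `β` of `G` on `A` is equivariantly `D`-stable, where `t : A → D → C` exhibits `C` as
the spatial tensor product of `A` and `D`: the action `δ = β ⊗ id_D` of `G` on `C` (given by
`δ_g (t a d) = t (β_g a) d`) exists and `β` is cocycle conjugate to it. -/
def EquivariantlyStable {G : Type v} [Group G] {A D C : Type u} [NonUnitalCStarAlgebra A]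
    [NonUnitalCStarAlgebra D] [NonUnitalCStarAlgebra C] (t : A → D → C)
    (β : G →* (A ≃⋆ₐ[ℂ] A)) : Prop :=
  ∃ δ : G →* (C ≃⋆ₐ[ℂ] C), (∀ g a d, δ g (t a d) = t (β g a) d) ∧ CocycleConjugate β δ

end Vale.Agent.P095
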