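import Vale.Agent.Lib.P095.Basic

/-!
# Auxiliary lemmas on multipliers and spatial tensor products
-/

open scoped TensorProduct MultiplierAlgebra InnerProductSpace

namespace Vale.Agent.P095

universe u v

section Multipliers

variable {A B : Type u} [NonUnitalCStarAlgebra A] [NonUnitalCStarAlgebra B]

lemma eq_of_left_mul {z w : A} (h : ∀ x, x * z = x * w) : z = w := by
  have h1 : star (z - w) * (z - w) = 0 := by
    rw [mul_sub, h, sub_self]
  have h2 := (CStarRing.star_mul_self_eq_zero_iff (z - w)).1 h1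
  exact sub_eq_zero.1 h2

lemma eq_of_right_mul {z w : A} (h : ∀ x, z * x = w * x) : z = w := by
  have h1 : (z - w) * star (z - w) = 0 := by
    rw [sub_mul, h, sub_self]
  have h2 := (CStarRing.mul_star_self_eq_zero_iff (z - w)).1 h1
  exact sub_eq_zero.1 h2

lemma fst_mul (m : 𝓜(ℂ, A)) (a b : A) : m.fst (a * b) = m.fst a * b := by
  apply eq_of_left_mul
  intro x
  rw [← m.central, ← mul_assoc, ← mul_assoc, ← m.central]

lemma snd_mul (m : 𝓜(ℂ, A)) (a b : A) : m.snd (a * b) = a * m.snd b := by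
  apply eq_of_right_mul
  intro x
  rw [m.central, mul_assoc, mul_assoc, ← m.central]

lemma mul_coe (m : 𝓜(ℂ, A)) (a : A) : m * (a : 𝓜(ℂ, A)) = (m.fst a : A) := by
  apply DoubleCentralizer.ext
  apply Prod.ext
  · ext b
    show m.fst (a * b) = m.fst a * b
    exact fst_mul m a b
  · ext b
    show (m.snd b) * a = b * m.fst a
    exact m.central b a

lemma coe_mul (m : 𝓜(ℂ, A)) (a : A) : (a : 𝓜(ℂ, A)) * m = (m.snd a : A) := by
  apply DoubleCentralizer.ext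
  apply Prod.ext
  · ext b
    show a * m.fst b = m.snd a * b
    exact (m.central a b).symm
  · ext b
    show m.snd (b * a) = b * m.snd a
    exact snd_mul m b a

lemma coe_inj {a b : A} (h : (a : 𝓜(ℂ, A)) = (b : 𝓜(ℂ, A))) : a = b := by
  apply eq_of_right_mul
  intro x
  have := congrArg (fun m : 𝓜(ℂ, A) => m.fst x) h
  simpa using this

lemma ext_fst {m n : 𝓜(ℂ, A)} (h : ∀ a, m.fst a = n.fst a) : m = n := by
  apply DoubleCentralizer.ext
  apply Prod.ext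
  · ext a; exact h a
  · ext a
    show m.snd a = n.snd a
    apply eq_of_right_mul
    intro x
    rw [m.central, n.central, h]

@[simp] lemma toCLM_apply (φ : A ≃⋆ₐ[ℂ] B) (a : A) : toCLM φ a = φ a := rfl

@[simp] lemma mulExt_fst (φ : A ≃⋆ₐ[ℂ] B) (m : 𝓜(ℂ, A)) (b : B) :
    (mulExt φ m).fst b = φ (m.fst (φ.symm b)) := rfl

@[simp] lemma mulExt_snd (φ : A ≃⋆ₐ[ℂ] B) (m : 𝓜(ℂ, A)) (b : B) :
    (mulExt φ m).snd b = φ (m.snd (φ.symm b)) := rfl

lemma mulExt_mul (φ : A ≃⋆ₐ[ℂ] B) (m n : 𝓜(ℂ, A)) :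
    mulExt φ (m * n) = mulExt φ m * mulExt φ n := by
  apply ext_fst
  intro b
  show φ (m.fst (n.fst (φ.symm b))) = φ (m.fst (φ.symm (φ (n.fst (φ.symm b)))))
  simp

lemma mulExt_one (φ : A ≃⋆ₐ[ℂ] B) : mulExt φ (1 : 𝓜(ℂ, A)) = 1 := by
  apply ext_fst
  intro b
  show φ (φ.symm b) = b
  simp

lemma mulExt_star (φ : A ≃⋆ₐ[ℂ] B) (m : 𝓜(ℂ, A)) :
    mulExt φ (star m) = star (mulExt φ m) := by
  apply ext_fst
  intro b
  show φ (star (m.snd (star (φ.symm b)))) = star (φ (m.snd (φ.symm (star b))))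
  rw [map_star φ, map_star φ.symm]

lemma mulExt_smul (φ : A ≃⋆ₐ[ℂ] B) (c : ℂ) (m : 𝓜(ℂ, A)) :
    mulExt φ (c • m) = c • mulExt φ m := by
  apply ext_fst
  intro b
  show φ (c • m.fst (φ.symm b)) = c • φ (m.fst (φ.symm b))
  rw [map_smul]

lemma mulExt_coe (φ : A ≃⋆ₐ[ℂ] B) (a : A) :
    mulExt φ (a : 𝓜(ℂ, A)) = ((φ a : B) : 𝓜(ℂ, B)) := by
  apply ext_fst
  intro b
  show φ (a * φ.symm b) = φ a * b
  simp [map_mul]

lemma mulExt_unitary (φ : A ≃⋆ₐ[ℂ] B) {m : 𝓜(ℂ, A)} (hm : m ∈ unitary 𝓜(ℂ, A)) :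
    mulExt φ m ∈ unitary 𝓜(ℂ, B) := by
  rw [Unitary.mem_iff] at hm ⊢
  rw [← mulExt_star, ← mulExt_mul, ← mulExt_mul, hm.1, hm.2, mulExt_one]
  exact ⟨rfl, rfl⟩

/-- conjugation of an element of the algebra by a unitary multiplier -/
noncomputable def adFun (m : 𝓜(ℂ, A)) (a : A) : A := m.fst ((star m).snd a)

lemma coe_adFun (m : 𝓜(ℂ, A)) (a : A) :
    ((adFun m a : A) : 𝓜(ℂ, A)) = m * (a : 𝓜(ℂ, A)) * star m := by
  rw [mul_assoc, coe_mul, mul_coe]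
  rfl

lemma adFun_adFun (m : 𝓜(ℂ, A)) (n : 𝓜(ℂ, A)) (a : A) :
    adFun n (adFun m a) = adFun (n * m) a := by
  apply coe_inj
  rw [coe_adFun, coe_adFun, coe_adFun, star_mul]
  simp only [mul_assoc]

lemma adFun_one (a : A) : adFun (1 : 𝓜(ℂ, A)) a = a := by
  apply coe_inj
  rw [coe_adFun]; simp

/-- conjugation by a unitary multiplier as a *-automorphism -/
noncomputable def adEquiv (m : unitary 𝓜(ℂ, A)) : A ≃⋆ₐ[ℂ] A :=
  { toFun := adFun (m : 𝓜(ℂ, A))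
    invFun := adFun (star (m : 𝓜(ℂ, A)))
    left_inv := fun a => by
      rw [adFun_adFun, Unitary.star_mul_self_of_mem m.2, adFun_one]
    right_inv := fun a => by
      rw [adFun_adFun, Unitary.mul_star_self_of_mem m.2, adFun_one]
    map_mul' := fun a b => by
      apply coe_inj
      have hmul : ∀ x y : A, ((x * y : A) : 𝓜(ℂ, A)) = (x : 𝓜(ℂ, A)) * (y : 𝓜(ℂ, A)) :=
        fun x y => map_mul (DoubleCentralizer.coeHom (𝕜 := ℂ) (A := A)) x y
      rw [hmul, coe_adFun, coe_adFun, coe_adFun, hmul]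
      have h := Unitary.star_mul_self_of_mem m.2
      calc (m : 𝓜(ℂ, A)) * ((a : 𝓜(ℂ, A)) * (b : 𝓜(ℂ, A))) * star (m : 𝓜(ℂ, A))
          = (m : 𝓜(ℂ, A)) * (a : 𝓜(ℂ, A)) * 1 * (b : 𝓜(ℂ, A)) * star (m : 𝓜(ℂ, A)) := by
            simp only [mul_assoc, one_mul]
        _ = _ := by
            rw [← h]; simp only [mul_assoc]
    map_add' := fun a b => by
      show (m : 𝓜(ℂ, A)).fst ((star (m : 𝓜(ℂ, A))).snd (a + b)) = _
      rw [map_add, map_add]; rfl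
    map_smul' := fun c a => by
      show (m : 𝓜(ℂ, A)).fst ((star (m : 𝓜(ℂ, A))).snd (c • a)) = _
      rw [map_smul, map_smul]; rfl
    map_star' := fun a => by
      apply coe_inj
      have hstar : ∀ x : A, ((star x : A) : 𝓜(ℂ, A)) = star (x : 𝓜(ℂ, A)) :=
        fun x => map_star (DoubleCentralizer.coeHom (𝕜 := ℂ) (A := A)) x
      rw [hstar, coe_adFun, coe_adFun, hstar]
      simp only [star_mul, star_star, mul_assoc] }

@[simp] lemma adEquiv_apply (m : unitary 𝓜(ℂ, A)) (a : A) :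
    adEquiv m a = adFun (m : 𝓜(ℂ, A)) a := rfl

lemma mulExt_adEquiv (m : unitary 𝓜(ℂ, A)) (n : 𝓜(ℂ, A)) :
    mulExt (adEquiv m) n = (m : 𝓜(ℂ, A)) * n * star (m : 𝓜(ℂ, A)) := by
  apply ext_fst
  intro a
  apply coe_inj
  rw [← mul_coe (_ * _ * _)]
  show ((adFun (m : 𝓜(ℂ, A)) (n.fst (adFun (star (m : 𝓜(ℂ, A))) a)) : A) : 𝓜(ℂ, A)) = _
  have h := Unitary.mul_star_self_of_mem m.2
  have h' : ((adFun (star (m : 𝓜(ℂ, A))) a : A) : 𝓜(ℂ, A)) = star (m : 𝓜(ℂ, A)) * a * m := by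
    rw [coe_adFun, star_star]
  rw [coe_adFun, ← mul_coe, h']
  calc (m : 𝓜(ℂ, A)) * (n * (star (m : 𝓜(ℂ, A)) * (a : 𝓜(ℂ, A)) * m)) * star (m : 𝓜(ℂ, A))
      = (m : 𝓜(ℂ, A)) * n * star (m : 𝓜(ℂ, A)) * (a : 𝓜(ℂ, A)) * (m * star (m : 𝓜(ℂ, A))) := by
        simp only [mul_assoc]
    _ = _ := by rw [h, mul_one]

end Multipliers

end Vale.Agent.P095
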