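import Vale.Agent.Lib.P095.TensorOne

/-!
# Equivariant `D`-stability only depends on the class of the action in `Out(A)`
-/

open scoped TensorProduct MultiplierAlgebra InnerProductSpace

namespace Vale.Agent.P095

universe u v

variable {A D C : Type u} [NonUnitalCStarAlgebra A] [NonUnitalCStarAlgebra D]
  [NonUnitalCStarAlgebra C]

lemma mulExt_comp {B : Type u} [NonUnitalCStarAlgebra B] (φ ψ : B ≃⋆ₐ[ℂ] B) (m : 𝓜(ℂ, B)) :
    mulExt (φ * ψ) m = mulExt φ (mulExt ψ m) := by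
  apply ext_fst
  intro b
  rfl

theorem outer_class (hA : IsSimpleCStar A) (t : A → D → C)
    (ht : IsSpatialTensorProduct t) {G : Type v} [Group G]
    (α β : G →* (A ≃⋆ₐ[ℂ] A)) (hβ : EquivariantlyStable t β)
    (hα : ∀ g, ∃ m : unitary 𝓜(ℂ, A), ∀ a : A,
      ((α g a : A) : 𝓜(ℂ, A)) = (m : 𝓜(ℂ, A)) * ((β g a : A) : 𝓜(ℂ, A)) *
        star (m : 𝓜(ℂ, A))) :
    EquivariantlyStable t α := by
  obtain ⟨δ, hδ, Φ, w, hw, hconj⟩ := hβ
  choose m hm using hα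
  -- uniformly use coercions
  let V : G → unitary 𝓜(ℂ, C) := fun g => ⟨tensOne ht (m g), tensOne_mem ht (m g)⟩
  have hVel : ∀ g a d, (adEquiv (V g) * δ g) (t a d) = t (α g a) d := by
    intro g a d
    show (tensOne ht (m g)).fst ((star (tensOne ht (m g))).snd (δ g (t a d))) = _
    rw [hδ, tensOne_star, tensOne_snd, tensOne_fst]
    congr 1
    apply coe_inj
    rw [hm g a]
    exact coe_adFun (m g : 𝓜(ℂ, A)) (β g a)
  have hext : ∀ (φ ψ : C ≃⋆ₐ[ℂ] C), (∀ a d, φ (t a d) = ψ (t a d)) → φ = ψ := by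
    intro φ ψ h
    have h1 : toCLM φ = toCLM ψ := eq_of_elem ht h
    apply StarAlgEquiv.ext
    intro c
    exact congrArg (fun S : C →L[ℂ] C => S c) h1
  let γ : G →* (C ≃⋆ₐ[ℂ] C) :=
    { toFun := fun g => adEquiv (V g) * δ g
      map_one' := by
        apply hext
        intro a d
        rw [hVel, map_one]
        rfl
      map_mul' := fun g h => by
        apply hext
        intro a d
        rw [hVel, map_mul]
        show _ = (adEquiv (V g) * δ g) ((adEquiv (V h) * δ h) (t a d))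
        rw [hVel, hVel]
        rfl }
  -- compatibility of `δ` with `tensOne`
  have hδT : ∀ g (v : unitary 𝓜(ℂ, A)), mulExt (δ g) (tensOne ht v) =
      tensOne ht ⟨mulExt (β g) (v : 𝓜(ℂ, A)), mulExt_unitary (β g) v.2⟩ := by
    intro g v
    apply mult_ext ht
    intro a d
    rw [tensOne_fst]
    show δ g ((tensOne ht v).fst ((δ g).symm (t a d))) = _
    have hsymm : (δ g).symm (t a d) = t ((β g).symm a) d := by
      have h5 : δ g (t ((β g).symm a) d) = t a d := by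
        rw [hδ]
        simp
      rw [← h5]
      simp
    rw [hsymm, tensOne_fst, hδ]
    rfl
  -- the conjugacy relation extends to multipliers
  have hwu1 : ∀ g, star (w g : 𝓜(ℂ, C)) * (w g : 𝓜(ℂ, C)) = 1 := fun g =>
    Unitary.star_mul_self_of_mem (w g).2
  have hwu2 : ∀ g, (w g : 𝓜(ℂ, C)) * star (w g : 𝓜(ℂ, C)) = 1 := fun g =>
    Unitary.mul_star_self_of_mem (w g).2
  have hΦm : ∀ g (x : 𝓜(ℂ, A)), mulExt Φ (mulExt (β g) x) =
      (w g : 𝓜(ℂ, C)) * mulExt (δ g) (mulExt Φ x) * star (w g : 𝓜(ℂ, C)) := by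
    intro g x
    have hcoe : ∀ a : A, mulExt Φ (mulExt (β g) x) * ((Φ (β g a) : C) : 𝓜(ℂ, C)) =
        ((w g : 𝓜(ℂ, C)) * mulExt (δ g) (mulExt Φ x) * star (w g : 𝓜(ℂ, C))) *
          ((Φ (β g a) : C) : 𝓜(ℂ, C)) := by
      intro a
      have h1 : mulExt Φ (mulExt (β g) x) * ((Φ (β g a) : C) : 𝓜(ℂ, C)) =
          ((Φ (β g (x.fst a)) : C) : 𝓜(ℂ, C)) := by
        rw [← mulExt_coe Φ, ← mulExt_coe (β g), ← mulExt_mul, ← mulExt_mul, mul_coe, mulExt_coe,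
          mulExt_coe]
      rw [h1, hconj g (x.fst a), hconj g a]
      have h2 : ((δ g (Φ (x.fst a)) : C) : 𝓜(ℂ, C)) =
          mulExt (δ g) (mulExt Φ x) * ((δ g (Φ a) : C) : 𝓜(ℂ, C)) := by
        rw [← mulExt_coe (δ g), ← mulExt_coe (δ g), ← mulExt_coe Φ, ← mulExt_coe Φ,
          ← mulExt_mul, ← mulExt_mul, mul_coe]
      rw [h2]
      symm
      calc (w g : 𝓜(ℂ, C)) * mulExt (δ g) (mulExt Φ x) * star (w g : 𝓜(ℂ, C)) *
          ((w g : 𝓜(ℂ, C)) * ((δ g (Φ a) : C) : 𝓜(ℂ, C)) * star (w g : 𝓜(ℂ, C)))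
          = (w g : 𝓜(ℂ, C)) * mulExt (δ g) (mulExt Φ x) *
              (star (w g : 𝓜(ℂ, C)) * (w g : 𝓜(ℂ, C))) *
              ((δ g (Φ a) : C) : 𝓜(ℂ, C)) * star (w g : 𝓜(ℂ, C)) := by
            simp only [mul_assoc]
        _ = _ := by rw [hwu1, mul_one]; simp only [mul_assoc]
    apply ext_fst
    intro c
    obtain ⟨a, ha⟩ : ∃ a, Φ (β g a) = c := ⟨(β g).symm (Φ.symm c), by simp⟩
    have h3 := hcoe a
    rw [ha, mul_coe, mul_coe] at h3
    exact coe_inj h3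
  -- the scalars
  have hmu1 : ∀ g, star (m g : 𝓜(ℂ, A)) * (m g : 𝓜(ℂ, A)) = 1 := fun g =>
    Unitary.star_mul_self_of_mem (m g).2
  have hmu2 : ∀ g, (m g : 𝓜(ℂ, A)) * star (m g : 𝓜(ℂ, A)) = 1 := fun g =>
    Unitary.mul_star_self_of_mem (m g).2
  have hscal : ∀ g h, ∃ c : ℂ, c * star c = 1 ∧
      (m g : 𝓜(ℂ, A)) * mulExt (β g) (m h : 𝓜(ℂ, A)) = c • (m (g * h) : 𝓜(ℂ, A)) := by
    intro g h
    set p : 𝓜(ℂ, A) := (m g : 𝓜(ℂ, A)) * mulExt (β g) (m h : 𝓜(ℂ, A)) with hp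
    have hpu : p ∈ unitary 𝓜(ℂ, A) := mul_mem (m g).2 (mulExt_unitary (β g) (m h).2)
    set q : 𝓜(ℂ, A) := (m (g * h) : 𝓜(ℂ, A)) with hq
    have hzu : star q * p ∈ unitary 𝓜(ℂ, A) := mul_mem (Unitary.star_mem (m (g * h)).2) hpu
    have hrel : ∀ b : A, p * (b : 𝓜(ℂ, A)) * star p = q * (b : 𝓜(ℂ, A)) * star q := by
      intro b
      obtain ⟨a, ha⟩ : ∃ a, β (g * h) a = b := ⟨(β (g * h)).symm b, by simp⟩
      have e1 := hm (g * h) a
      rw [ha] at e1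
      rw [← hq] at e1
      rw [← e1]
      have e2 : α (g * h) a = α g (α h a) := by rw [map_mul]; rfl
      have e3 : β (g * h) a = β g (β h a) := by rw [map_mul]; rfl
      rw [e2, hm g (α h a)]
      have e4 : ((β g (α h a) : A) : 𝓜(ℂ, A)) = mulExt (β g) (m h : 𝓜(ℂ, A)) *
          (b : 𝓜(ℂ, A)) * star (mulExt (β g) (m h : 𝓜(ℂ, A))) := by
        rw [← mulExt_coe (β g), hm h a, mulExt_mul, mulExt_mul, mulExt_star, mulExt_coe, ← e3, ha]
      rw [e4, hp, star_mul]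
      simp only [mul_assoc]
    have hqu : star q * q = 1 := hmu1 (g * h)
    have hqu2 : q * star q = 1 := hmu2 (g * h)
    have hpu1 : star p * p = 1 := Unitary.star_mul_self_of_mem hpu
    have hcomm : ∀ a : A, Commute (star q * p) (a : 𝓜(ℂ, A)) := by
      intro a
      show star q * p * (a : 𝓜(ℂ, A)) = (a : 𝓜(ℂ, A)) * (star q * p)
      calc star q * p * (a : 𝓜(ℂ, A))
          = star q * (p * (a : 𝓜(ℂ, A)) * star p) * p := by
            simp only [mul_assoc]; rw [hpu1, mul_one]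
        _ = (star q * q) * (a : 𝓜(ℂ, A)) * (star q * p) := by
            rw [hrel a]; simp only [mul_assoc]
        _ = _ := by rw [hqu, one_mul]
    obtain ⟨c, hc⟩ := central_unitary_scalar hA _ hzu hcomm
    refine ⟨c, ?_, ?_⟩
    · have : Nontrivial A := hA.1
      have : Nontrivial 𝓜(ℂ, A) := by
        obtain ⟨a, b, hab⟩ := exists_pair_ne A
        exact ⟨(a : 𝓜(ℂ, A)), (b : 𝓜(ℂ, A)), fun h => hab (coe_inj h)⟩
      have h3 := Unitary.mul_star_self_of_mem hzu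
      rw [hc, star_smul, star_one, smul_mul_smul_comm, one_mul] at h3
      have h4 : (c * star c) • (1 : 𝓜(ℂ, A)) = (1 : ℂ) • (1 : 𝓜(ℂ, A)) := by
        rw [h3, one_smul]
      exact smul_left_injective ℂ (one_ne_zero : (1 : 𝓜(ℂ, A)) ≠ 0) h4
    · calc p = (q * star q) * p := by rw [hqu2, one_mul]
        _ = q * (c • (1 : 𝓜(ℂ, A))) := by rw [mul_assoc, hc]
        _ = c • q := by rw [mul_smul_comm, mul_one]
  have hVu : ∀ g, star (tensOne ht (m g)) * tensOne ht (m g) = 1 := fun g =>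
    Unitary.star_mul_self_of_mem (tensOne_mem ht (m g))
  refine ⟨γ, hVel, Φ, fun g => ⟨mulExt Φ (m g) * w g * star (tensOne ht (m g)), ?_⟩, ?_, ?_⟩
  · exact mul_mem (mul_mem (mulExt_unitary Φ (m g).2) (w g).2)
      (Unitary.star_mem (tensOne_mem ht (m g)))
  · intro g h
    obtain ⟨c, hcc, hprod⟩ := hscal g h
    have hT : tensOne ht (m g) * mulExt (δ g) (tensOne ht (m h)) =
        c • tensOne ht (m (g * h)) := by
      rw [hδT, tensOne_mul]
      exact tensOne_smul ht _ _ c hprod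
    have hM : mulExt Φ (m g : 𝓜(ℂ, A)) * mulExt Φ (mulExt (β g) (m h : 𝓜(ℂ, A))) =
        c • mulExt Φ (m (g * h) : 𝓜(ℂ, A)) := by
      rw [← mulExt_mul, ← mulExt_smul, ← hprod]
    show mulExt Φ (m (g * h) : 𝓜(ℂ, A)) * (w (g * h) : 𝓜(ℂ, C)) *
        star (tensOne ht (m (g * h))) =
      mulExt Φ (m g : 𝓜(ℂ, A)) * (w g : 𝓜(ℂ, C)) * star (tensOne ht (m g)) *
        mulExt (adEquiv (V g) * δ g) (mulExt Φ (m h : 𝓜(ℂ, A)) * (w h : 𝓜(ℂ, C)) *
          star (tensOne ht (m h)))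
    rw [mulExt_comp, mulExt_adEquiv, mulExt_mul, mulExt_mul, mulExt_star]
    show _ = mulExt Φ (m g : 𝓜(ℂ, A)) * (w g : 𝓜(ℂ, C)) * star (tensOne ht (m g)) *
        (tensOne ht (m g) * (mulExt (δ g) (mulExt Φ (m h : 𝓜(ℂ, A))) *
          mulExt (δ g) (w h : 𝓜(ℂ, C)) * star (mulExt (δ g) (tensOne ht (m h)))) *
          star (tensOne ht (m g)))
    symm
    calc mulExt Φ (m g : 𝓜(ℂ, A)) * (w g : 𝓜(ℂ, C)) * star (tensOne ht (m g)) *
        (tensOne ht (m g) * (mulExt (δ g) (mulExt Φ (m h : 𝓜(ℂ, A))) *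
          mulExt (δ g) (w h : 𝓜(ℂ, C)) * star (mulExt (δ g) (tensOne ht (m h)))) *
          star (tensOne ht (m g)))
        = mulExt Φ (m g : 𝓜(ℂ, A)) * (w g : 𝓜(ℂ, C)) *
            (star (tensOne ht (m g)) * tensOne ht (m g)) *
            mulExt (δ g) (mulExt Φ (m h : 𝓜(ℂ, A))) * mulExt (δ g) (w h : 𝓜(ℂ, C)) *
            (star (mulExt (δ g) (tensOne ht (m h))) * star (tensOne ht (m g))) := by
          simp only [mul_assoc]
      _ = mulExt Φ (m g : 𝓜(ℂ, A)) * ((w g : 𝓜(ℂ, C)) *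
            mulExt (δ g) (mulExt Φ (m h : 𝓜(ℂ, A))) *
            (star (w g : 𝓜(ℂ, C)) * (w g : 𝓜(ℂ, C)))) * mulExt (δ g) (w h : 𝓜(ℂ, C)) *
            star (tensOne ht (m g) * mulExt (δ g) (tensOne ht (m h))) := by
          rw [hVu, hwu1, mul_one, mul_one, star_mul]
          simp only [mul_assoc]
      _ = (mulExt Φ (m g : 𝓜(ℂ, A)) * ((w g : 𝓜(ℂ, C)) *
            mulExt (δ g) (mulExt Φ (m h : 𝓜(ℂ, A))) * star (w g : 𝓜(ℂ, C)))) *
            ((w g : 𝓜(ℂ, C)) * mulExt (δ g) (w h : 𝓜(ℂ, C))) *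
            star (c • tensOne ht (m (g * h))) := by
          rw [hT]
          simp only [mul_assoc]
      _ = (c * star c) • (mulExt Φ (m (g * h) : 𝓜(ℂ, A)) * (w (g * h) : 𝓜(ℂ, C)) *
            star (tensOne ht (m (g * h)))) := by
          rw [← hΦm, hM, ← hw, star_smul, smul_mul_assoc, smul_mul_smul_comm]
      _ = _ := by rw [hcc, one_smul]
  · intro g a
    show ((Φ (α g a) : C) : 𝓜(ℂ, C)) =
      (mulExt Φ (m g : 𝓜(ℂ, A)) * (w g : 𝓜(ℂ, C)) * star (tensOne ht (m g))) *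
        ((adFun (tensOne ht (m g)) (δ g (Φ a)) : C) : 𝓜(ℂ, C)) *
        star (mulExt Φ (m g : 𝓜(ℂ, A)) * (w g : 𝓜(ℂ, C)) * star (tensOne ht (m g)))
    rw [coe_adFun, ← mulExt_coe Φ, hm g a, mulExt_mul, mulExt_mul, mulExt_coe, mulExt_star,
      star_mul, star_mul, star_star, hconj g a]
    symm
    calc mulExt Φ (m g : 𝓜(ℂ, A)) * (w g : 𝓜(ℂ, C)) * star (tensOne ht (m g)) *
        (tensOne ht (m g) * ((δ g (Φ a) : C) : 𝓜(ℂ, C)) * star (tensOne ht (m g))) *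
        (tensOne ht (m g) * (star (w g : 𝓜(ℂ, C)) * star (mulExt Φ (m g : 𝓜(ℂ, A)))))
        = mulExt Φ (m g : 𝓜(ℂ, A)) * (w g : 𝓜(ℂ, C)) *
            (star (tensOne ht (m g)) * tensOne ht (m g)) *
            ((δ g (Φ a) : C) : 𝓜(ℂ, C)) * (star (tensOne ht (m g)) * tensOne ht (m g)) *
            star (w g : 𝓜(ℂ, C)) * star (mulExt Φ (m g : 𝓜(ℂ, A))) := by
          simp only [mul_assoc]
      _ = _ := by rw [hVu, mul_one, mul_one]; simp only [mul_assoc]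

/-- The trivial action is equivariantly `D`-stable as soon as `A ≅ A ⊗ D`. -/
theorem trivial_stable (t : A → D → C) {G : Type v} [Group G] (Φ : A ≃⋆ₐ[ℂ] C) :
    EquivariantlyStable t (1 : G →* (A ≃⋆ₐ[ℂ] A)) := by
  refine ⟨1, fun g a d => rfl, Φ, fun _ => 1, ?_, ?_⟩
  · intro g h
    show (1 : 𝓜(ℂ, C)) = 1 * mulExt 1 (1 : 𝓜(ℂ, C))
    rw [mulExt_one, one_mul]
  · intro g a
    show ((Φ a : C) : 𝓜(ℂ, C)) = 1 * ((Φ a : C) : 𝓜(ℂ, C)) * star 1
    rw [star_one, one_mul, mul_one]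

end Vale.Agent.P095
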