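import Vale.Agent.Lib.P095.Lemmas

/-!
# Central unitary multipliers of a simple C*-algebra are scalars
-/

open scoped TensorProduct MultiplierAlgebra InnerProductSpace

namespace Vale.Agent.P095

universe u v

variable {A : Type u} [NonUnitalCStarAlgebra A]

lemma fst_eq_zero_imp {m : 𝓜(ℂ, A)} (h : ∀ a, m.fst a = 0) : m = 0 :=
  ext_fst (fun a => by rw [h]; rfl)

lemma central_annihilator (hA : IsSimpleCStar A) {F G : 𝓜(ℂ, A)}
    (hG : ∀ a : A, Commute G (a : 𝓜(ℂ, A))) (hGF : G * F = 0) : F = 0 ∨ G = 0 := by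
  let I : Submodule ℂ A := LinearMap.ker (G.fst : A →ₗ[ℂ] A)
  have hmem : ∀ a : A, a ∈ I ↔ G.fst a = 0 := fun a => by
    simp [I, LinearMap.mem_ker]
  have hclosed : IsClosed (I : Set A) := by
    have : (I : Set A) = (fun a => G.fst a) ⁻¹' {0} := by
      ext a; simp [hmem]
    rw [this]
    exact isClosed_singleton.preimage G.fst.continuous
  have hideal : ∀ a x : A, x ∈ I → a * x ∈ I ∧ x * a ∈ I := by
    intro a x hx
    rw [hmem] at hx
    refine ⟨?_, ?_⟩
    · rw [hmem]
      apply coe_inj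
      have hmul : ((a * x : A) : 𝓜(ℂ, A)) = (a : 𝓜(ℂ, A)) * (x : 𝓜(ℂ, A)) :=
        map_mul (DoubleCentralizer.coeHom (𝕜 := ℂ) (A := A)) a x
      rw [← mul_coe, hmul, ← mul_assoc, (hG a).eq, mul_assoc, mul_coe, hx]
      have h0 : ((0 : A) : 𝓜(ℂ, A)) = 0 := map_zero (DoubleCentralizer.coeHom (𝕜 := ℂ) (A := A))
      rw [h0, mul_zero]
    · rw [hmem, fst_mul, hx, zero_mul]
  rcases hA.2 I hclosed hideal with h | h
  · left
    apply fst_eq_zero_imp
    intro a
    have h1 : F.fst a ∈ I := by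
      rw [hmem]
      have := congrArg (fun m : 𝓜(ℂ, A) => m.fst a) hGF
      simpa using this
    rw [h] at h1
    simpa using h1
  · right
    apply fst_eq_zero_imp
    intro a
    have h1 : a ∈ I := by rw [h]; trivial
    exact (hmem a).1 h1

lemma central_unitary_scalar (hA : IsSimpleCStar A) (z : 𝓜(ℂ, A)) (hz : z ∈ unitary 𝓜(ℂ, A))
    (hc : ∀ a : A, Commute z (a : 𝓜(ℂ, A))) : ∃ c : ℂ, z = c • (1 : 𝓜(ℂ, A)) := by
  have : Nontrivial A := hA.1
  have : Nontrivial 𝓜(ℂ, A) := by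
    obtain ⟨a, b, hab⟩ := exists_pair_ne A
    exact ⟨(a : 𝓜(ℂ, A)), (b : 𝓜(ℂ, A)), fun h => hab (coe_inj h)⟩
  have hnorm : IsStarNormal z := by
    refine ⟨?_⟩
    rw [Unitary.mem_iff] at hz
    show star z * z = z * star z
    rw [hz.1, hz.2]
  have hcs : ∀ a : A, Commute (star z) (a : 𝓜(ℂ, A)) := by
    intro a
    have h1 := Unitary.star_mul_self_of_mem hz
    have h2 := Unitary.mul_star_self_of_mem hz
    show star z * (a : 𝓜(ℂ, A)) = (a : 𝓜(ℂ, A)) * star z
    calc star z * (a : 𝓜(ℂ, A)) = star z * ((a : 𝓜(ℂ, A)) * z) * star z := by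
          rw [mul_assoc, mul_assoc, h2, mul_one]
      _ = star z * (z * (a : 𝓜(ℂ, A))) * star z := by rw [(hc a).eq]
      _ = (a : 𝓜(ℂ, A)) * star z := by rw [← mul_assoc, h1, one_mul]
  obtain ⟨lam, hlam⟩ := spectrum.nonempty z
  by_cases hsing : ∀ mu ∈ spectrum ℂ z, mu = lam
  · refine ⟨lam, ?_⟩
    have h1 : cfc (fun w : ℂ => w) z = z := cfc_id' ℂ z
    have h2 : cfc (fun w : ℂ => w) z = cfc (fun _ : ℂ => lam) z :=
      cfc_congr (fun w hw => hsing w hw)
    rw [← h1, h2, cfc_const lam z, Algebra.algebraMap_eq_smul_one]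
  · exfalso
    push Not at hsing
    obtain ⟨mu, hmu, hne⟩ := hsing
    set r : ℝ := ‖lam - mu‖ / 2 with hr
    have hrpos : 0 < r := by
      have : 0 < ‖lam - mu‖ := norm_pos_iff.2 (sub_ne_zero.2 (Ne.symm hne))
      positivity
    let f : ℂ → ℂ := fun w => ((max 0 (r - ‖w - lam‖) : ℝ) : ℂ)
    let g : ℂ → ℂ := fun w => ((max 0 (r - ‖w - mu‖) : ℝ) : ℂ)
    have hf : Continuous f := by fun_prop
    have hg : Continuous g := by fun_prop
    have hfg : ∀ w, g w * f w = 0 := by
      intro w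
      have : max 0 (r - ‖w - lam‖) = 0 ∨ max 0 (r - ‖w - mu‖) = 0 := by
        by_contra hcon
        push Not at hcon
        have h1 : ‖w - lam‖ < r := by
          by_contra h
          exact hcon.1 (max_eq_left (by linarith [not_lt.1 h]))
        have h2 : ‖w - mu‖ < r := by
          by_contra h
          exact hcon.2 (max_eq_left (by linarith [not_lt.1 h]))
        have h3 : ‖lam - mu‖ ≤ ‖w - mu‖ + ‖w - lam‖ := by
          calc ‖lam - mu‖ = ‖(w - mu) - (w - lam)‖ := by congr 1; ring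
            _ ≤ _ := norm_sub_le _ _
        linarith [hr]
      rcases this with h | h
      · simp [f, h]
      · simp [g, h]
    have hGF : cfc g z * cfc f z = 0 := by
      rw [← cfc_mul g f z hg.continuousOn hf.continuousOn]
      have : (fun w => g w * f w) = fun _ => (0 : ℂ) := funext hfg
      rw [this, cfc_const_zero ℂ z]
    have hGc : ∀ a : A, Commute (cfc g z) (a : 𝓜(ℂ, A)) := fun a =>
      (hc a).cfc (hcs a) g
    have hcase := central_annihilator hA hGc hGF
    have hspec : ∀ (p : ℂ → ℂ), Continuous p → ∀ nu ∈ spectrum ℂ z, p nu ≠ 0 → cfc p z ≠ 0 := by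
      intro p hp nu hnu hpn h0
      have h1 : p nu ∈ spectrum ℂ (cfc p z) := by
        rw [cfc_map_spectrum p z hnorm hp.continuousOn]
        exact ⟨nu, hnu, rfl⟩
      rw [h0, spectrum.zero_eq] at h1
      exact hpn h1
    rcases hcase with h | h
    · refine hspec f hf lam hlam ?_ h
      simp [f, hrpos.ne', hrpos.le]
    · refine hspec g hg mu hmu ?_ h
      simp [g, hrpos.ne', hrpos.le]

end Vale.Agent.P095
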