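import Vale.Agent.Lib.P095.Simple

/-!
# Algebra in a spatial tensor product, and `v ⊗ 1` for a unitary multiplier `v`
-/

open scoped TensorProduct MultiplierAlgebra InnerProductSpace

namespace Vale.Agent.P095

universe u v

section HilbertTensor

variable {H K L : Type u} [NormedAddCommGroup H] [InnerProductSpace ℂ H]
  [NormedAddCommGroup K] [InnerProductSpace ℂ K] [NormedAddCommGroup L] [InnerProductSpace ℂ L]
  {τ : H →ₗ[ℂ] K →ₗ[ℂ] L}

lemma eq_of_tmul (hτ : IsHilbertTensor τ) {X : Type u} [NormedAddCommGroup X] [NormedSpace ℂ X]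
    {S T : L →L[ℂ] X} (h : ∀ (ξ : H) (η : K), S (τ ξ η) = T (τ ξ η)) : S = T := by
  have h1 : Set.EqOn S T (Submodule.span ℂ (Set.range fun p : H × K => τ p.1 p.2) : Set L) := by
    intro x hx
    have : (Submodule.span ℂ (Set.range fun p : H × K => τ p.1 p.2)) ≤
        LinearMap.eqLocus (S : L →ₗ[ℂ] X) (T : L →ₗ[ℂ] X) := by
      rw [Submodule.span_le]
      rintro _ ⟨p, rfl⟩
      exact h p.1 p.2
    exact this hx
  have h2 := Continuous.ext_on hτ.2 S.continuous T.continuous h1
  ext x
  exact congrFun h2 x

lemma eq_of_inner_tmul (hτ : IsHilbertTensor τ) {v w : L}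
    (h : ∀ (ξ : H) (η : K), inner ℂ (τ ξ η) v = inner ℂ (τ ξ η) w) : v = w := by
  have h0 : ∀ x ∈ (Submodule.span ℂ (Set.range fun p : H × K => τ p.1 p.2) : Set L),
      inner ℂ x (v - w) = 0 := by
    intro x hx
    induction hx using Submodule.span_induction with
    | mem x hx =>
      obtain ⟨p, rfl⟩ := hx
      rw [inner_sub_right, h, sub_self]
    | zero => exact inner_zero_left _
    | add x y _ _ hx hy => rw [inner_add_left, hx, hy, add_zero]
    | smul c x _ hx => rw [inner_smul_left, hx, mul_zero]
  have h1 : inner ℂ (v - w) (v - w) = 0 := by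
    have hcl : IsClosed {x : L | inner ℂ x (v - w) = 0} :=
      isClosed_eq (by fun_prop) continuous_const
    have := hcl.closure_subset_iff.2 h0
    rw [hτ.2.closure_eq] at this
    exact this (Set.mem_univ (v - w))
  exact sub_eq_zero.1 (inner_self_eq_zero.1 h1)

end HilbertTensor

section Tensor

variable {A D C : Type u} [NonUnitalCStarAlgebra A] [NonUnitalCStarAlgebra D]
  [NonUnitalCStarAlgebra C] {t : A → D → C}

/-- the algebraic laws of the elementary tensors in a spatial tensor product -/
structure TensorLaws (t : A → D → C) : Prop where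
  add_left : ∀ a b d, t (a + b) d = t a d + t b d
  add_right : ∀ a d e, t a (d + e) = t a d + t a e
  smul_left : ∀ (c : ℂ) a d, t (c • a) d = c • t a d
  smul_right : ∀ (c : ℂ) a d, t a (c • d) = c • t a d
  mul : ∀ a b d e, t a d * t b e = t (a * b) (d * e)
  star : ∀ a d, star (t a d) = t (star a) (star d)

lemma IsSpatialTensorProduct.laws (ht : IsSpatialTensorProduct t) : TensorLaws t := by
  obtain ⟨H, K, L, i1, i2, i3, i4, i5, i6, i7, i8, i9, hrep⟩ := ht.exists_rep
  obtain ⟨τ, π, σ, ρ, hτ, -, -, hρ, hel⟩ := hrep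
  refine ⟨?_, ?_, ?_, ?_, ?_, ?_⟩
  · intro a b d
    apply hρ
    apply eq_of_tmul hτ
    intro ξ η
    rw [map_add, add_apply, hel, hel, hel, map_add,
      add_apply, map_add, LinearMap.add_apply]
  · intro a d e
    apply hρ
    apply eq_of_tmul hτ
    intro ξ η
    rw [map_add, add_apply, hel, hel, hel, map_add,
      add_apply, map_add]
  · intro c a d
    apply hρ
    apply eq_of_tmul hτ
    intro ξ η
    rw [map_smul, smul_apply, hel, hel, map_smul,
      smul_apply, map_smul, LinearMap.smul_apply]
  · intro c a d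
    apply hρ
    apply eq_of_tmul hτ
    intro ξ η
    rw [map_smul, smul_apply, hel, hel, map_smul,
      smul_apply, map_smul]
  · intro a b d e
    apply hρ
    apply eq_of_tmul hτ
    intro ξ η
    rw [map_mul]
    show ρ (t a d) (ρ (t b e) _) = _
    rw [hel, hel, hel, map_mul, map_mul]
    rfl
  · intro a d
    apply hρ
    rw [map_star]
    apply eq_of_tmul hτ
    intro ξ η
    show ContinuousLinearMap.adjoint (ρ (t a d)) _ = _
    apply eq_of_inner_tmul hτ
    intro ξ' η'
    rw [ContinuousLinearMap.adjoint_inner_right, hel, hel, hτ.1, hτ.1, map_star, map_star]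
    show _ = inner ℂ ξ' (ContinuousLinearMap.adjoint (π a) ξ) *
      inner ℂ η' (ContinuousLinearMap.adjoint (σ d) η)
    rw [ContinuousLinearMap.adjoint_inner_right, ContinuousLinearMap.adjoint_inner_right]

/-- the linear map on the algebraic tensor product -/
noncomputable def TensorLaws.lin (h : TensorLaws t) : A ⊗[ℂ] D →ₗ[ℂ] C :=
  TensorProduct.lift
    (LinearMap.mk₂ ℂ t h.add_left h.smul_left h.add_right h.smul_right)

@[simp] lemma TensorLaws.lin_tmul (h : TensorLaws t) (a : A) (d : D) :
    h.lin (a ⊗ₜ[ℂ] d) = t a d := by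
  simp [TensorLaws.lin]

lemma TensorLaws.denseRange (h : TensorLaws t) (ht : IsSpatialTensorProduct t) :
    DenseRange h.lin := by
  have hsub : (Submodule.span ℂ (Set.range fun p : A × D => t p.1 p.2) : Set C) ⊆
      Set.range h.lin := by
    have : Submodule.span ℂ (Set.range fun p : A × D => t p.1 p.2) ≤ LinearMap.range h.lin := by
      rw [Submodule.span_le]
      rintro _ ⟨⟨a, d⟩, rfl⟩
      exact ⟨a ⊗ₜ[ℂ] d, h.lin_tmul a d⟩
    intro x hx
    exact this hx
  exact ht.dense_span.mono hsub

/-- induction principle: a closed additive predicate holding on elementary tensors holds on `C` -/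
lemma eq_of_elem {X : Type u} [NormedAddCommGroup X] [NormedSpace ℂ X]
    (ht : IsSpatialTensorProduct t) {S T : C →L[ℂ] X} (hST : ∀ a d, S (t a d) = T (t a d)) :
    S = T := by
  have h := ht.laws
  ext x
  refine (h.denseRange ht).induction_on (p := fun x => S x = T x) x
    (isClosed_eq S.continuous T.continuous) ?_
  intro y
  induction y using TensorProduct.induction_on with
  | zero => simp
  | tmul a d => simpa using hST a d
  | add a b ha hb => rw [map_add, map_add, map_add, ha, hb]

end Tensor

end Vale.Agent.P095
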