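import Vale.Agent.Lib.P095.Tensor

/-!
# The multiplier `v ⊗ 1` for a unitary multiplier `v`
-/

open scoped TensorProduct MultiplierAlgebra InnerProductSpace

namespace Vale.Agent.P095

universe u v

variable {A D C : Type u} [NonUnitalCStarAlgebra A] [NonUnitalCStarAlgebra D]
  [NonUnitalCStarAlgebra C] {t : A → D → C}

lemma star_fst_mul_fst {v : 𝓜(ℂ, A)} (hv : v ∈ unitary 𝓜(ℂ, A)) (a b : A) :
    star (v.fst a) * v.fst b = star a * b := by
  have hmul : ∀ x y : A, ((x * y : A) : 𝓜(ℂ, A)) = (x : 𝓜(ℂ, A)) * (y : 𝓜(ℂ, A)) :=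
    fun x y => map_mul (DoubleCentralizer.coeHom (𝕜 := ℂ) (A := A)) x y
  have hstar : ∀ x : A, ((star x : A) : 𝓜(ℂ, A)) = star (x : 𝓜(ℂ, A)) :=
    fun x => map_star (DoubleCentralizer.coeHom (𝕜 := ℂ) (A := A)) x
  apply coe_inj
  rw [hmul, hmul, hstar, hstar, ← mul_coe, ← mul_coe, star_mul]
  have h := Unitary.star_mul_self_of_mem hv
  calc star (a : 𝓜(ℂ, A)) * star v * (v * (b : 𝓜(ℂ, A)))
      = star (a : 𝓜(ℂ, A)) * (star v * v) * (b : 𝓜(ℂ, A)) := by simp only [mul_assoc]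
    _ = _ := by rw [h, mul_one]

lemma snd_mul_star_snd {v : 𝓜(ℂ, A)} (hv : v ∈ unitary 𝓜(ℂ, A)) (a b : A) :
    v.snd a * star (v.snd b) = a * star b := by
  have hmul : ∀ x y : A, ((x * y : A) : 𝓜(ℂ, A)) = (x : 𝓜(ℂ, A)) * (y : 𝓜(ℂ, A)) :=
    fun x y => map_mul (DoubleCentralizer.coeHom (𝕜 := ℂ) (A := A)) x y
  have hstar : ∀ x : A, ((star x : A) : 𝓜(ℂ, A)) = star (x : 𝓜(ℂ, A)) :=
    fun x => map_star (DoubleCentralizer.coeHom (𝕜 := ℂ) (A := A)) x
  apply coe_inj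
  rw [hmul, hmul, hstar, hstar, ← coe_mul, ← coe_mul, star_mul]
  have h := Unitary.mul_star_self_of_mem hv
  calc (a : 𝓜(ℂ, A)) * v * (star v * star (b : 𝓜(ℂ, A)))
      = (a : 𝓜(ℂ, A)) * (v * star v) * star (b : 𝓜(ℂ, A)) := by simp only [mul_assoc]
    _ = _ := by rw [h, mul_one]

/-- `(v ⊗ 1)` on the algebraic tensor product, left multiplication -/
noncomputable def algL (v : 𝓜(ℂ, A)) : A ⊗[ℂ] D →ₗ[ℂ] A ⊗[ℂ] D :=
  TensorProduct.map (v.fst : A →ₗ[ℂ] A) LinearMap.id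

/-- `(v ⊗ 1)` on the algebraic tensor product, right multiplication -/
noncomputable def algR (v : 𝓜(ℂ, A)) : A ⊗[ℂ] D →ₗ[ℂ] A ⊗[ℂ] D :=
  TensorProduct.map (v.snd : A →ₗ[ℂ] A) LinearMap.id

lemma algL_tmul (v : 𝓜(ℂ, A)) (a : A) (d : D) :
    algL v (a ⊗ₜ[ℂ] d) = (v.fst a) ⊗ₜ[ℂ] d := by
  simp [algL]

lemma algR_tmul (v : 𝓜(ℂ, A)) (a : A) (d : D) :
    algR v (a ⊗ₜ[ℂ] d) = (v.snd a) ⊗ₜ[ℂ] d := by
  simp [algR]

lemma star_lin_mul (h : TensorLaws t) {v : 𝓜(ℂ, A)} (hv : v ∈ unitary 𝓜(ℂ, A))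
    (x y : A ⊗[ℂ] D) :
    star (h.lin (algL v x)) * h.lin (algL v y) = star (h.lin x) * h.lin y := by
  induction x using TensorProduct.induction_on with
  | zero => simp
  | tmul a d =>
    induction y using TensorProduct.induction_on with
    | zero => simp
    | tmul b e =>
      rw [algL_tmul, algL_tmul, h.lin_tmul, h.lin_tmul, h.lin_tmul, h.lin_tmul, h.star, h.star,
        h.mul, h.mul, star_fst_mul_fst hv]
    | add y z hy hz => rw [map_add, map_add, map_add, mul_add, mul_add, hy, hz]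
  | add x z hx hz => rw [map_add, map_add, map_add, star_add, star_add, add_mul, add_mul, hx, hz]

lemma lin_mul_star (h : TensorLaws t) {v : 𝓜(ℂ, A)} (hv : v ∈ unitary 𝓜(ℂ, A))
    (x y : A ⊗[ℂ] D) :
    h.lin (algR v x) * star (h.lin (algR v y)) = h.lin x * star (h.lin y) := by
  induction x using TensorProduct.induction_on with
  | zero => simp
  | tmul a d =>
    induction y using TensorProduct.induction_on with
    | zero => simp
    | tmul b e =>
      rw [algR_tmul, algR_tmul, h.lin_tmul, h.lin_tmul, h.lin_tmul, h.lin_tmul, h.star, h.star,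
        h.mul, h.mul, snd_mul_star_snd hv]
    | add y z hy hz =>
      rw [map_add, map_add, map_add, star_add, star_add, mul_add, mul_add, hy, hz]
  | add x z hx hz => rw [map_add, map_add, map_add, add_mul, add_mul, hx, hz]

lemma norm_algL (h : TensorLaws t) {v : 𝓜(ℂ, A)} (hv : v ∈ unitary 𝓜(ℂ, A)) (x : A ⊗[ℂ] D) :
    ‖h.lin (algL v x)‖ = ‖h.lin x‖ := by
  have h1 := congrArg norm (star_lin_mul h hv x x)
  rw [CStarRing.norm_star_mul_self, CStarRing.norm_star_mul_self] at h1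
  exact (mul_self_inj (norm_nonneg _) (norm_nonneg _)).1 h1

lemma norm_algR (h : TensorLaws t) {v : 𝓜(ℂ, A)} (hv : v ∈ unitary 𝓜(ℂ, A)) (x : A ⊗[ℂ] D) :
    ‖h.lin (algR v x)‖ = ‖h.lin x‖ := by
  have h1 := congrArg norm (lin_mul_star h hv x x)
  rw [CStarRing.norm_self_mul_star, CStarRing.norm_self_mul_star] at h1
  exact (mul_self_inj (norm_nonneg _) (norm_nonneg _)).1 h1

/-- left multiplication by `v ⊗ 1` -/
noncomputable def leftT (h : TensorLaws t) (v : 𝓜(ℂ, A)) : C →L[ℂ] C :=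
  (h.lin ∘ₗ algL v).extendOfNorm h.lin

/-- right multiplication by `v ⊗ 1` -/
noncomputable def rightT (h : TensorLaws t) (v : 𝓜(ℂ, A)) : C →L[ℂ] C :=
  (h.lin ∘ₗ algR v).extendOfNorm h.lin

lemma leftT_elem (ht : IsSpatialTensorProduct t) {v : 𝓜(ℂ, A)} (hv : v ∈ unitary 𝓜(ℂ, A))
    (a : A) (d : D) : leftT ht.laws v (t a d) = t (v.fst a) d := by
  have h := ht.laws
  have h1 := LinearMap.extendOfNorm_eq (f := h.lin ∘ₗ algL v) (e := h.lin) (h.denseRange ht)
    ⟨1, fun x => by rw [one_mul]; exact (norm_algL h hv x).le⟩ (a ⊗ₜ[ℂ] d)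
  rw [h.lin_tmul, LinearMap.comp_apply, algL_tmul, h.lin_tmul] at h1
  exact h1

lemma rightT_elem (ht : IsSpatialTensorProduct t) {v : 𝓜(ℂ, A)} (hv : v ∈ unitary 𝓜(ℂ, A))
    (a : A) (d : D) : rightT ht.laws v (t a d) = t (v.snd a) d := by
  have h := ht.laws
  have h1 := LinearMap.extendOfNorm_eq (f := h.lin ∘ₗ algR v) (e := h.lin) (h.denseRange ht)
    ⟨1, fun x => by rw [one_mul]; exact (norm_algR h hv x).le⟩ (a ⊗ₜ[ℂ] d)
  rw [h.lin_tmul, LinearMap.comp_apply, algR_tmul, h.lin_tmul] at h1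
  exact h1

/-- `v ⊗ 1` as a multiplier of the spatial tensor product -/
noncomputable def tensOne (ht : IsSpatialTensorProduct t) (v : unitary 𝓜(ℂ, A)) : 𝓜(ℂ, C) :=
  { fst := leftT ht.laws (v : 𝓜(ℂ, A))
    snd := rightT ht.laws (v : 𝓜(ℂ, A))
    central := by
      have key : ∀ b e, (ContinuousLinearMap.mul ℂ C).flip (t b e) ∘L
          rightT ht.laws (v : 𝓜(ℂ, A)) =
          (ContinuousLinearMap.mul ℂ C).flip (leftT ht.laws (v : 𝓜(ℂ, A)) (t b e)) := by
        intro b e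
        apply eq_of_elem ht
        intro a d
        show rightT ht.laws (v : 𝓜(ℂ, A)) (t a d) * t b e =
          t a d * leftT ht.laws (v : 𝓜(ℂ, A)) (t b e)
        rw [rightT_elem ht v.2, leftT_elem ht v.2, ht.laws.mul, ht.laws.mul,
          (v : 𝓜(ℂ, A)).central]
      intro x y
      have h2 : (ContinuousLinearMap.mul ℂ C) (rightT ht.laws (v : 𝓜(ℂ, A)) x) =
          (ContinuousLinearMap.mul ℂ C x) ∘L leftT ht.laws (v : 𝓜(ℂ, A)) := by
        apply eq_of_elem ht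
        intro b e
        exact congrArg (fun S : C →L[ℂ] C => S x) (key b e)
      exact congrArg (fun S : C →L[ℂ] C => S y) h2 }

lemma tensOne_fst (ht : IsSpatialTensorProduct t) (v : unitary 𝓜(ℂ, A)) (a : A) (d : D) :
    (tensOne ht v).fst (t a d) = t ((v : 𝓜(ℂ, A)).fst a) d := leftT_elem ht v.2 a d

lemma tensOne_snd (ht : IsSpatialTensorProduct t) (v : unitary 𝓜(ℂ, A)) (a : A) (d : D) :
    (tensOne ht v).snd (t a d) = t ((v : 𝓜(ℂ, A)).snd a) d := rightT_elem ht v.2 a d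

lemma mult_ext (ht : IsSpatialTensorProduct t) {m n : 𝓜(ℂ, C)}
    (h : ∀ a d, m.fst (t a d) = n.fst (t a d)) : m = n := by
  have h1 : m.fst = n.fst := eq_of_elem ht h
  exact ext_fst (fun c => by rw [h1])

lemma tensOne_mul (ht : IsSpatialTensorProduct t) (v w : unitary 𝓜(ℂ, A)) :
    tensOne ht v * tensOne ht w = tensOne ht (v * w) := by
  apply mult_ext ht
  intro a d
  show (tensOne ht v).fst ((tensOne ht w).fst (t a d)) = _
  rw [tensOne_fst, tensOne_fst, tensOne_fst]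
  rfl

lemma tensOne_one (ht : IsSpatialTensorProduct t) : tensOne ht (1 : unitary 𝓜(ℂ, A)) = 1 := by
  apply mult_ext ht
  intro a d
  rw [tensOne_fst]
  rfl

lemma tensOne_star (ht : IsSpatialTensorProduct t) (v : unitary 𝓜(ℂ, A)) :
    star (tensOne ht v) = tensOne ht (star v) := by
  apply mult_ext ht
  intro a d
  rw [tensOne_fst]
  show star ((tensOne ht v).snd (star (t a d))) = _
  rw [ht.laws.star, tensOne_snd, ht.laws.star, star_star]
  rfl

lemma tensOne_smul (ht : IsSpatialTensorProduct t) (v w : unitary 𝓜(ℂ, A)) (c : ℂ)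
    (h : (v : 𝓜(ℂ, A)) = c • (w : 𝓜(ℂ, A))) : tensOne ht v = c • tensOne ht w := by
  apply mult_ext ht
  intro a d
  rw [tensOne_fst, h]
  show t (c • (w : 𝓜(ℂ, A)).fst a) d = c • (tensOne ht w).fst (t a d)
  rw [tensOne_fst, ht.laws.smul_left]

lemma tensOne_mem (ht : IsSpatialTensorProduct t) (v : unitary 𝓜(ℂ, A)) :
    tensOne ht v ∈ unitary 𝓜(ℂ, C) := by
  rw [Unitary.mem_iff, tensOne_star, tensOne_mul, tensOne_mul]
  have h1 : star v * v = 1 := by simp
  have h2 : v * star v = 1 := by simp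
  rw [h1, h2, tensOne_one]
  exact ⟨rfl, rfl⟩

end Vale.Agent.P095
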